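import Vale.Agent.P141.PL.H855.StepDefs
import Vale.Agent.P141.PL.H855.CSlot0
import Vale.Agent.P141.H393.MbbProp0

/-!
# P141, line W, PROC (S5): the black box for the total of a region

`cut ud A`: the family `A` cut to the region `ud`.
`mbb_region`: the total of the nodes of a region `ud` below the used cell `(L0, x0)` is at most
`C P (∏ S j) 2 ^ L0` if the cut families are moving slots of the sizes `S j`.
-/

namespace Vale.Agent.P141.H748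

open Finset Function
open Vale.Agent.P141.PL.H571 (W mem_W)
open Vale.Agent.P141.PL.H95 (gr mem_gr card_gr)
open Vale.Agent.P141.H315
open Vale.Agent.P141.H347 (cd)
open Vale.Agent.P141.H8
open Vale.Agent.P141.PL.H855

noncomputable section

open scoped Classical

section cut

variable {X : Type*} {g : Grid X} {gd ud : ℕ → X → Prop} {L : ℕ} {x : X}

/-- the family `A` cut to the region `ud` -/
def cut (ud : ℕ → X → Prop) (A : ℕ → X → ℝ) : ℕ → X → ℝ := fun k y => if ud k y then A k y else 0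

theorem cut_of {A : ℕ → X → ℝ} {k : ℕ} {y : X} (h : ud k y) : cut ud A k y = A k y := if_pos h

theorem cut_not {A : ℕ → X → ℝ} {k : ℕ} {y : X} (h : ¬ ud k y) : cut ud A k y = 0 := if_neg h

theorem cut_add (A B : ℕ → X → ℝ) : cut ud (A + B) = cut ud A + cut ud B := by
  funext k y
  simp only [cut, Pi.add_apply]
  split_ifs
  · rfl
  · rw [add_zero]

theorem cut_sub (A B : ℕ → X → ℝ) : cut ud (A - B) = cut ud A - cut ud B := by
  funext k y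
  simp only [cut, Pi.sub_apply]
  split_ifs
  · rfl
  · rw [sub_zero]

theorem cut_neg (A : ℕ → X → ℝ) : cut ud (-A) = - cut ud A := by
  funext k y
  simp only [cut, Pi.neg_apply]
  split_ifs
  · rfl
  · rw [neg_zero]

/-- a second cut to a smaller region -/
theorem cut_cut {ud' : ℕ → X → Prop} (h : ∀ k y, ud' k y → ud k y) (A : ℕ → X → ℝ) :
    cut ud' (cut ud A) = cut ud' A := by
  funext k y
  by_cases h1 : ud' k y
  · rw [cut_of h1, cut_of h1, cut_of (h k y h1)]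
  · rw [cut_not h1, cut_not h1]

/-- on the cube of a used cell the cut changes nothing -/
theorem cut_cube (h : Rgn g gd L x ud) (A : ℕ → X → ℝ) {k : ℕ} {y z : X} (hy : ud k y)
    (hz : z ∈ g.cube k y) : cut ud A k z = A k z := cut_of ((h.const k y z hz).2 hy)

variable {α : Type*}

theorem TR_cut (nv : N4 g α) (h : Rgn g gd L x ud) (A : Fin 4 → ℕ → X → ℝ) :
    TR nv ud (fun j => cut ud (A j)) = TR nv ud A :=
  TR_congr fun _ _ hy j _ hz => cut_cube h (A j) hy hz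

theorem T4_cut (nv : NV g α) (h : Rgn g gd L x ud) (A B C D : ℕ → X → ℝ) :
    T4 nv ud (cut ud A) (cut ud B) (cut ud C) (cut ud D) = T4 nv ud A B C D :=
  T4_congr fun _ _ hy _ hz => ⟨cut_cube h A hy hz, cut_cube h B hy hz, cut_cube h C hy hz,
    cut_cube h D hy hz⟩

end cut

/-- the windows are not empty -/
theorem self_mem_W (N : ℕ × ℤ) : (2 : ℤ) ^ N.1 * N.2 ∈ W N.1 N.2 := by
  have h : (0 : ℤ) < 2 ^ N.1 := by positivity
  rw [mem_W]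
  constructor <;> nlinarith

/-- **The black box for the total of a region.** -/
theorem mbb_region {Rt : ℕ → ℝ → Prop} (h : MBB0 Rt) : ∃ C : ℝ, 0 ≤ C ∧
    ∀ (n : ℕ) (P : ℝ), 0 ≤ P → Rt n P →
    ∀ (s : ℤ) {o : ℤ} (ho : o = 1 ∨ o = -1) (nd : Finset (ℕ × ℤ)) (le : ℕ × ℤ → ℤ)
      (hsub : ∀ N ∈ nd, W N.1 N.2 ⊆ (gr 7 s).cube N.1 (le N)), (∀ N ∈ nd, 1 ≤ N.1) →
    ∀ (L0 : ℕ) (x0 : ℤ) (gd ud : ℕ → ℤ → Prop), L0 ≤ n → Rgn (gr 7 s) gd L0 x0 ud →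
    ∀ (A : Fin 4 → ℕ → ℤ → ℝ) (S : Fin 4 → ℝ), (∀ j, CSlot0 s L0 (cut ud (A j)) (S j)) →
      TR (n4T s ho nd le hsub) ud A ≤ C * P * (∏ j, S j) * 2 ^ L0 := by
  obtain ⟨C, hC, h⟩ := mbb_cell0 h
  refine ⟨C, hC, fun n P hP hroot s o ho nd le hsub h1 L0 x0 gd ud hL hR A S hA => ?_⟩
  rw [← TR_cut (n4T s ho nd le hsub) hR A, TR_n4T]
  refine h n P hP hroot o ho s L0 x0 hL _ (fun N hN => ?_) (fun j => cut ud (A j)) S hA
  obtain ⟨hN, hu⟩ := mem_filter.1 hN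
  obtain ⟨h2, h3⟩ := hR.bel _ _ hu
  exact ⟨h1 N hN, h2, _, self_mem_W N,
    (gr 7 s).cube_subset h2 h3 (hsub N hN (self_mem_W N))⟩

/-- the same for the four-slot format of `H8.Cell` -/
theorem mbb_region4 {Rt : ℕ → ℝ → Prop} (h : MBB0 Rt) : ∃ C : ℝ, 0 ≤ C ∧
    ∀ (n : ℕ) (P : ℝ), 0 ≤ P → Rt n P →
    ∀ (s : ℤ) {o : ℤ} (ho : o = 1 ∨ o = -1) (nd : Finset (ℕ × ℤ)) (le : ℕ × ℤ → ℤ)
      (hsub : ∀ N ∈ nd, W N.1 N.2 ⊆ (gr 7 s).cube N.1 (le N)), (∀ N ∈ nd, 1 ≤ N.1) →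
    ∀ (L0 : ℕ) (x0 : ℤ) (gd ud : ℕ → ℤ → Prop), L0 ≤ n → Rgn (gr 7 s) gd L0 x0 ud →
    ∀ (σ : Equiv.Perm (Fin 4)) (A B D E : ℕ → ℤ → ℝ) (a b d e : ℝ),
      CSlot0 s L0 (cut ud A) a → CSlot0 s L0 (cut ud B) b → CSlot0 s L0 (cut ud D) d →
      CSlot0 s L0 (cut ud E) e →
      T4 ((n4T s ho nd le hsub).toNV σ) ud A B D E ≤ C * P * (a * b * d * e) * 2 ^ L0 := by
  obtain ⟨C, hC, h⟩ := mbb_region h
  refine ⟨C, hC, fun n P hP hroot s o ho nd le hsub h1 L0 x0 gd ud hL hR σ A B D E a b d e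
    hA hB hD hE => ?_⟩
  rw [T4_toNV]
  have h2 := h n P hP hroot s ho nd le hsub h1 L0 x0 gd ud hL hR
    (fun j => ![A, B, D, E] (σ j)) (fun j => ![a, b, d, e] (σ j)) (fun j => by
      generalize σ j = m
      fin_cases m
      · exact hA
      · exact hB
      · exact hD
      · exact hE)
  have h3 : ∏ j, ![a, b, d, e] (σ j) = a * b * d * e := by
    rw [Equiv.prod_comp σ ![a, b, d, e]]
    simp [Fin.prod_univ_four]
  rwa [h3] at h2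

/-- **(S5)** for the root estimate `Root2` -/
theorem mbbW : ∃ C : ℝ, 0 ≤ C ∧
    ∀ (n : ℕ) (P : ℝ), 0 ≤ P → H347.Root2 n P →
    ∀ (s : ℤ) {o : ℤ} (ho : o = 1 ∨ o = -1) (nd : Finset (ℕ × ℤ)) (le : ℕ × ℤ → ℤ)
      (hsub : ∀ N ∈ nd, W N.1 N.2 ⊆ (gr 7 s).cube N.1 (le N)), (∀ N ∈ nd, 1 ≤ N.1) →
    ∀ (L0 : ℕ) (x0 : ℤ) (gd ud : ℕ → ℤ → Prop), L0 ≤ n → Rgn (gr 7 s) gd L0 x0 ud →
    ∀ (A : Fin 4 → ℕ → ℤ → ℝ) (S : Fin 4 → ℝ), (∀ j, CSlot0 s L0 (cut ud (A j)) (S j)) →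
      TR (n4T s ho nd le hsub) ud A ≤ C * P * (∏ j, S j) * 2 ^ L0 :=
  mbb_region Vale.Agent.P141.H393.mbb0_root2

/-- **(S5)**, four-slot format -/
theorem mbbW4 : ∃ C : ℝ, 0 ≤ C ∧
    ∀ (n : ℕ) (P : ℝ), 0 ≤ P → H347.Root2 n P →
    ∀ (s : ℤ) {o : ℤ} (ho : o = 1 ∨ o = -1) (nd : Finset (ℕ × ℤ)) (le : ℕ × ℤ → ℤ)
      (hsub : ∀ N ∈ nd, W N.1 N.2 ⊆ (gr 7 s).cube N.1 (le N)), (∀ N ∈ nd, 1 ≤ N.1) →
    ∀ (L0 : ℕ) (x0 : ℤ) (gd ud : ℕ → ℤ → Prop), L0 ≤ n → Rgn (gr 7 s) gd L0 x0 ud →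
    ∀ (σ : Equiv.Perm (Fin 4)) (A B D E : ℕ → ℤ → ℝ) (a b d e : ℝ),
      CSlot0 s L0 (cut ud A) a → CSlot0 s L0 (cut ud B) b → CSlot0 s L0 (cut ud D) d →
      CSlot0 s L0 (cut ud E) e →
      T4 ((n4T s ho nd le hsub).toNV σ) ud A B D E ≤ C * P * (a * b * d * e) * 2 ^ L0 :=
  mbb_region4 Vale.Agent.P141.H393.mbb0_root2

end

end Vale.Agent.P141.H748
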