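import Vale.Agent.P141.H297.SlotW
import Vale.Agent.P141.H610.MovH

/-!
# P141, line W, PROC (S4), the bottom term of two moving slots

On a region of one window of the threshold `e0`: the total with the slots 3 and 4 equal to
`V (tp e1) - V k` (births below the labels of the threshold `e1 ≤ e0`) by the black box.
-/

namespace Vale.Agent.P141.H748

open Finset
open Vale.Agent.P141.PL.H95 (gr)
open Vale.Agent.P141.H315 Vale.Agent.P141.PL.H318 Vale.Agent.P141.H347 Vale.Agent.P141.H297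
open Vale.Agent.P141.H8 Vale.Agent.P141.H610
open Vale.Agent.P141.PL.H855 (CSlot0 N4 TR T4_toNV L2W Cdig0 cd_gr)

noncomputable section

open scoped Classical

theorem Rgn_mono {X : Type*} {g : Grid X} {gd gd' : ℕ → X → Prop} {L : ℕ} {x : X}
    {ud : ℕ → X → Prop} (h : Rgn g gd L x ud) (hs : ∀ k y, gd k y → gd' k y) :
    Rgn g gd' L x ud := ⟨h.const, h.up, h.bel, fun k y hy => hs k y (h.sub k y hy)⟩

section box

variable {α : Type*} {s : ℤ} {nv : N4 (gr 7 s) α} {gd gd' : ℕ → ℤ → Prop} {CP : ℝ}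

theorem BoxHyp_mono (hb : BoxHyp nv gd' CP) (hs : ∀ k y, gd k y → gd' k y) : BoxHyp nv gd CP :=
  fun L x ud h hx A S hA => hb L x ud (Rgn_mono h hs) hx A S hA

/-- two static and two moving slots -/
theorem T4_two (hb : BoxHyp nv gd CP) (σ : Equiv.Perm (Fin 4)) {L : ℕ} {x : ℤ}
    {ud : ℕ → ℤ → Prop} (hR : Rgn (gr 7 s) gd L x ud) (hx : ud L x) {A B : ℤ → ℝ}
    {C D : ℕ → ℤ → ℝ} {eA eB c d : ℝ} (heA : 0 < eA) (heB : 0 < eB)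
    (hA : En (gr 7 s) ud A eA) (hB : En (gr 7 s) ud B eB)
    (hC : CSlot0 s L (cutR ud C) c) (hD : CSlot0 s L (cutR ud D) d) :
    T4 (nv.toNV σ) ud (st A) (st B) C D ≤
      CP * ((68 * √eA) * (68 * √eB) * c * d) / 128 * cd (gr 7 s) L x :=
  T4_of_box hb σ hR hx (slot_en hR heA hA) (slot_en hR heB hB) hC hD

end box

variable {α : Type*} {s : ℤ} {nv : N4 (gr 7 s) α} {ι : Type*} {J : Type*} [Fintype J]
  {S : J → CSys (gr 7 s) ι}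
  {w : ∀ j, LW (S j)} {L : ℕ} {e : ℝ} {F : J → ℤ → ℝ} {gd : ℕ → ℤ → Prop}
  {V H : J → ℕ → ℤ → ℝ} {rs : J → ℕ → ℤ → Prop} {lm : J → ℕ → ℤ → ℝ} {C2 CP : ℝ}

/-- the births of the path `j` below the labels of the threshold `e1` -/
def tl (w : ∀ j, LW (S j)) (L : ℕ) (gd : ℕ → ℤ → Prop) (V H : J → ℕ → ℤ → ℝ)
    (rs : J → ℕ → ℤ → Prop) (e1 C2 : ℝ) (j : J) : ℕ → ℤ → ℝ :=
  fun k y => V j (tp w L gd V H rs e1 C2 k y) y - V j k y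

/-- the size of the tail -/
def szTl (C2 e0 e1 Kb θ : ℝ) (m : ℕ) : ℝ := Cdig0 C2 (8 + 8 * m) θ * √e0 * (Kb * √e1) ^ θ

theorem szTl_one (C2 e0 e1 Kb : ℝ) (m : ℕ) (he0 : 0 ≤ e0) :
    szTl C2 e0 e1 Kb 1 m = Cdig0 C2 (8 + 8 * m) 1 * Kb * √(e0 * e1) := by
  unfold szTl
  rw [Real.rpow_one, Real.sqrt_mul he0]
  ring

variable (hb : BoxHyp nv gd CP) (hP : Paths w L e F gd V H rs lm) {e0 : ℝ} (he0 : 0 < e0)
  {Λ L0 : ℕ} {z x0 : ℤ} (hΛ : Λ ≤ L) (hL0 : L0 ≤ Λ) {ud : ℕ → ℤ → Prop}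
  (h : Rgn (gr 7 s) (Wr (gr 7 s) gd (tp w L gd V H rs e0 C2) Λ z) L0 x0 ud) (hx : ud L0 x0)
  {Cg : ℝ} (hM : ∀ j, Mix (S j) Cg) (hC : 0 ≤ Cg)
  (hC2 : 4 * Fintype.card J * (1 + 2 * Cg) ≤ C2) {Kb : ℝ} (hKb : 0 < Kb)
include hP he0 hΛ hL0 h hM hC hC2 hKb

theorem slot_tl (a : J) (hS : L2W (w a) Kb) {e1 θ : ℝ} (he1 : 0 < e1) (h10 : e1 ≤ e0)
    (hθ0 : 0 < θ) (hθ1 : θ ≤ 1) :
    CSlot0 s L0 (cutR ud (tl w L gd V H rs e1 C2 a)) (szTl C2 e0 e1 Kb θ (Fintype.card J)) :=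
  slotTail hP he0 hΛ hL0 h hM hC hC2 a hKb hS he1 h10 hθ0 hθ1

include hb hx

/-- **The bottom term**, arbitrary first two slots. -/
theorem two_bot (σ : Equiv.Perm (Fin 4)) {A B : ℕ → ℤ → ℝ} {SA SB : ℝ}
    (hA : CSlot0 s L0 (cutR ud A) SA) (hB : CSlot0 s L0 (cutR ud B) SB) (a b : J)
    (ha : L2W (w a) Kb) (hb' : L2W (w b) Kb) {e1 θ : ℝ} (he1 : 0 < e1) (h10 : e1 ≤ e0)
    (hθ0 : 0 < θ) (hθ1 : θ ≤ 1) :
    T4 (nv.toNV σ) ud A B (tl w L gd V H rs e1 C2 a) (tl w L gd V H rs e1 C2 b) ≤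
      CP * (SA * SB * szTl C2 e0 e1 Kb θ (Fintype.card J) * szTl C2 e0 e1 Kb θ (Fintype.card J))
        / 128 * cd (gr 7 s) L0 x0 :=
  T4_of_box hb σ (Rgn_mono h fun _ _ hy => hy.1) hx hA hB
    (slot_tl hP he0 hΛ hL0 h hM hC hC2 hKb a ha he1 h10 hθ0 hθ1)
    (slot_tl hP he0 hΛ hL0 h hM hC hC2 hKb b hb' he1 h10 hθ0 hθ1)

/-- **The bottom term**, two static companions, `θ = 1`: `C P Kb² e0 e1`. -/
theorem two_bot_static (σ : Equiv.Perm (Fin 4)) {A B : ℤ → ℝ} {eA eB : ℝ} (heA : 0 < eA)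
    (heB : 0 < eB) (hA : En (gr 7 s) ud A eA) (hB : En (gr 7 s) ud B eB) (a b : J)
    (ha : L2W (w a) Kb) (hb' : L2W (w b) Kb) {e1 : ℝ} (he1 : 0 < e1) (h10 : e1 ≤ e0) :
    T4 (nv.toNV σ) ud (st A) (st B) (tl w L gd V H rs e1 C2 a) (tl w L gd V H rs e1 C2 b) ≤
      CP * (68 ^ 2 * √(eA * eB) * (Cdig0 C2 (8 + 8 * Fintype.card J) 1 ^ 2 * Kb ^ 2 * (e0 * e1)))
        / 128 * cd (gr 7 s) L0 x0 := by
  have hA' : CSlot0 s L0 (cutR ud (st A)) (68 * √eA) := slot_en h heA hA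
  have hB' : CSlot0 s L0 (cutR ud (st B)) (68 * √eB) := slot_en h heB hB
  have h1 := two_bot hb hP he0 hΛ hL0 h hx hM hC hC2 hKb σ hA' hB'
    a b ha hb' he1 h10 one_pos le_rfl
  refine h1.trans (le_of_eq ?_)
  rw [szTl_one _ _ _ _ _ he0.le, Real.sqrt_mul heA.le]
  have h2 : √(e0 * e1) * √(e0 * e1) = e0 * e1 := Real.mul_self_sqrt (by positivity)
  have h3 : (68 * √eA) * (68 * √eB) * (Cdig0 C2 (8 + 8 * (Fintype.card J : ℝ)) 1 * Kb * √(e0 * e1)) *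
      (Cdig0 C2 (8 + 8 * (Fintype.card J : ℝ)) 1 * Kb * √(e0 * e1)) =
      68 ^ 2 * (√eA * √eB) * (Cdig0 C2 (8 + 8 * (Fintype.card J : ℝ)) 1 ^ 2 * Kb ^ 2 *
        (√(e0 * e1) * √(e0 * e1))) := by ring
  rw [h3, h2]

end

end Vale.Agent.P141.H748
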